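import Vale.Agent.P052.R2.H353.Defs

/-!
# P052, discrete route: linear algebra of `cs` (row D-M4b of helper353's spec)
-/

namespace P052D

open scoped RealInnerProductSpace
open Module

/-- separation on the closed colour classes -/
theorem Col.F_sep {n N : ℕ} (C : Col n N) {i : Fin N} {y z : E n} (hy : y ∈ C.F i)
    (hz : z ∈ C.F i) : C.ε ≤ |⟪y, z⟫| := by
  have hcl : IsClosed {p : E n × E n | C.ε ≤ |⟪p.1, p.2⟫|} :=
    isClosed_le continuous_const ((continuous_fst.inner continuous_snd).abs)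
  have hsub : ({x : E n | ‖x‖ = 1 ∧ C.c x = i} ×ˢ {x : E n | ‖x‖ = 1 ∧ C.c x = i}) ⊆
      {p : E n × E n | C.ε ≤ |⟪p.1, p.2⟫|} := by
    rintro ⟨p, q⟩ ⟨⟨hp, hp'⟩, hq, hq'⟩
    exact (C.sep p q hp hq (hp'.trans hq'.symm)).le
  have h2 := closure_minimal hsub hcl
  rw [closure_prod_eq] at h2
  exact h2 (Set.mk_mem_prod hy hz)

theorem Col.F_orth {n N : ℕ} (C : Col n N) {i : Fin N} {y z : E n} (hy : y ∈ C.F i)
    (hz : z ∈ C.F i) (h : ⟪y, z⟫ = 0) : False := by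
  have h1 := C.F_sep hy hz
  rw [h, abs_zero] at h1
  exact absurd C.ε_pos (not_lt.2 h1)

theorem Col.mem_F {n N : ℕ} (C : Col n N) {y : E n} (hy : ‖y‖ = 1) : y ∈ C.F (C.c y) :=
  subset_closure ⟨hy, rfl⟩

/-- linear algebra of `cs` -/
theorem Col.disj {n N : ℕ} (C : Col n N) (U W : Submodule ℝ (E n)) (h : U ≤ Wᗮ) :
    Disjoint (C.cs U) (C.cs W) := by
  rw [Set.disjoint_left]
  rintro i ⟨y, hyU, hy⟩ ⟨z, hzW, hz⟩
  exact C.F_orth hz hy ((Submodule.mem_orthogonal W y).1 (h hyU) z hzW)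

theorem finrank_sup_le {n : ℕ} {ι : Type*} (s : Finset ι) (W : ι → Submodule ℝ (E n)) :
    finrank ℝ (s.sup W : Submodule ℝ (E n)) ≤ ∑ i ∈ s, finrank ℝ (W i) := by
  classical
  induction s using Finset.induction_on with
  | empty => simp
  | insert a s ha ih =>
    rw [Finset.sup_insert, Finset.sum_insert ha]
    exact (Submodule.finrank_add_le_finrank_add_finrank _ _).trans (by omega)

/-- a unit vector of `U` orthogonal to `X` -/
theorem exists_unit {n : ℕ} (U X : Submodule ℝ (E n)) (h : finrank ℝ X < finrank ℝ U) :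
    ∃ y ∈ U, ‖y‖ = 1 ∧ ∀ z ∈ X, ⟪z, y⟫ = 0 := by
  let f : U →ₗ[ℝ] X := (X.orthogonalProjection : E n →ₗ[ℝ] X).comp U.subtype
  have hk : LinearMap.ker f ≠ ⊥ := LinearMap.ker_ne_bot_of_finrank_lt h
  obtain ⟨u, hu, hu0⟩ := (Submodule.ne_bot_iff _).1 hk
  have hu1 : (u : E n) ≠ 0 := fun h0 => hu0 (Subtype.ext h0)
  have hu2 : X.orthogonalProjection (u : E n) = 0 := hu
  have hu3 : (u : E n) ∈ Xᗮ := Submodule.orthogonalProjection_eq_zero_iff.1 hu2
  refine ⟨‖(u : E n)‖⁻¹ • (u : E n), U.smul_mem _ u.2, norm_smul_inv_norm hu1, fun z hz => ?_⟩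
  rw [inner_smul_right, (Submodule.mem_orthogonal X _).1 hu3 z hz, mul_zero]

/-- linear algebra of `cs` -/
theorem Col.finrank_le {n N : ℕ} (C : Col n N) {ι : Type*} (s : Finset ι)
    (W : ι → Submodule ℝ (E n)) (U : Submodule ℝ (E n)) (h : C.cs U ⊆ ⋃ i ∈ s, C.cs (W i)) :
    finrank ℝ U ≤ ∑ i ∈ s, finrank ℝ (W i) := by
  by_contra hlt
  rw [not_le] at hlt
  obtain ⟨y, hyU, hy1, hy⟩ := exists_unit U (s.sup W) ((finrank_sup_le s W).trans_lt hlt)
  have h1 : C.c y ∈ C.cs U := ⟨y, hyU, C.mem_F hy1⟩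
  obtain ⟨j, hj⟩ := Set.mem_iUnion.1 (h h1)
  obtain ⟨hjs, z, hzW, hz⟩ := Set.mem_iUnion.1 hj
  exact C.F_orth hz (C.mem_F hy1) (hy z ((Finset.le_sup hjs : W j ≤ s.sup W) hzW))

/-- (0) a plane meets at least three colours -/
theorem Col.three {n N : ℕ} (C : Col n N) (U : Submodule ℝ (E n)) (hU : 2 ≤ finrank ℝ U)
    (a b : Fin N) : ∃ i ∈ C.cs U, i ≠ a ∧ i ≠ b := by
  by_contra hno
  push Not at hno
  have hab : ∀ i ∈ C.cs U, i = a ∨ i = b := fun i hi => or_iff_not_imp_left.2 (hno i hi)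
  -- every unit vector of `U` has an orthogonal unit vector in `U`
  have horth : ∀ x : E n, ∃ y ∈ U, ‖y‖ = 1 ∧ ⟪x, y⟫ = 0 := by
    intro x
    have h1 : finrank ℝ (ℝ ∙ x) ≤ 1 := (finrank_span_le_card ({x} : Set (E n))).trans (by simp)
    obtain ⟨y, hyU, hy1, hy⟩ := exists_unit U (ℝ ∙ x) (by omega)
    exact ⟨y, hyU, hy1, hy x (Submodule.mem_span_singleton_self x)⟩
  have hrank : 1 < Module.rank ℝ U := by
    rw [← finrank_eq_rank]
    exact_mod_cast hU
  have hconn := isPreconnected_sphere hrank (0 : U) 1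
  rw [isPreconnected_closed_iff] at hconn
  obtain ⟨x, hxU, hx1, -⟩ := horth 0
  obtain ⟨y, hyU, hy1, hxy⟩ := horth x
  have hcx := hab _ ⟨x, hxU, C.mem_F hx1⟩
  have hcy := hab _ ⟨y, hyU, C.mem_F hy1⟩
  have hne : C.c x ≠ C.c y := fun he =>
    C.F_orth (C.mem_F hx1) (he ▸ C.mem_F hy1) hxy
  have hcov : ∀ u ∈ U, ‖u‖ = 1 → u ∈ C.F a ∨ u ∈ C.F b := by
    intro u hu hu1
    rcases hab _ ⟨u, hu, C.mem_F hu1⟩ with h | h
    · exact Or.inl (h ▸ C.mem_F hu1)
    · exact Or.inr (h ▸ C.mem_F hu1)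
  have hin : (Metric.sphere (0 : U) 1 ∩ {u : U | (u : E n) ∈ C.F a}).Nonempty ∧
      (Metric.sphere (0 : U) 1 ∩ {u : U | (u : E n) ∈ C.F b}).Nonempty := by
    have hx' : (⟨x, hxU⟩ : U) ∈ Metric.sphere (0 : U) 1 := by
      rw [mem_sphere_zero_iff_norm]; exact hx1
    have hy' : (⟨y, hyU⟩ : U) ∈ Metric.sphere (0 : U) 1 := by
      rw [mem_sphere_zero_iff_norm]; exact hy1
    rcases hcx with h | h
    · rcases hcy with h' | h'
      · exact absurd (h.trans h'.symm) hne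
      · exact ⟨⟨_, hx', (h ▸ C.mem_F hx1 : x ∈ C.F a)⟩, ⟨_, hy', (h' ▸ C.mem_F hy1 : y ∈ C.F b)⟩⟩
    · rcases hcy with h' | h'
      · exact ⟨⟨_, hy', (h' ▸ C.mem_F hy1 : y ∈ C.F a)⟩, ⟨_, hx', (h ▸ C.mem_F hx1 : x ∈ C.F b)⟩⟩
      · exact absurd (h.trans h'.symm) hne
  obtain ⟨u, hus, hua, hub⟩ := hconn {u : U | (u : E n) ∈ C.F a} {u : U | (u : E n) ∈ C.F b}
    (isClosed_closure.preimage continuous_subtype_val)
    (isClosed_closure.preimage continuous_subtype_val)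
    (fun u hu => hcov u u.2 (by rw [mem_sphere_zero_iff_norm] at hu; exact hu))
    hin.1 hin.2
  obtain ⟨v, hvU, hv1, huv⟩ := horth (u : E n)
  rcases hcov v hvU hv1 with h | h
  · exact C.F_orth hua h huv
  · exact C.F_orth hub h huv

/-- the symmetric operator with coefficients `a` -/
noncomputable def symOp (n : ℕ) : (Sym2 (Fin n) → ℝ) →ₗ[ℝ] (E n →L[ℝ] E n) where
  toFun a := Matrix.toEuclideanCLM (𝕜 := ℝ) (n := Fin n) (Matrix.of fun i j => a s(i, j))
  map_add' a b := by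
    rw [← map_add]; rfl
  map_smul' r a := by
    rw [RingHom.id_apply, ← map_smul]; rfl

theorem symOp_mem (n : ℕ) (a : Sym2 (Fin n) → ℝ) : symOp n a ∈ S n := by
  intro x y
  have h : star (symOp n a) = symOp n a := by
    show star (Matrix.toEuclideanCLM (𝕜 := ℝ) (n := Fin n) (Matrix.of fun i j => a s(i, j))) = _
    rw [← map_star]
    show _ = Matrix.toEuclideanCLM (𝕜 := ℝ) (n := Fin n) (Matrix.of fun i j => a s(i, j))
    congr 1
    ext i j
    simp [Matrix.star_apply, Sym2.eq_swap]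
  rw [ContinuousLinearMap.star_eq_adjoint] at h
  rw [← ContinuousLinearMap.adjoint_inner_right, h]

theorem symOp_inj (n : ℕ) : Function.Injective (symOp n) := by
  intro a b h
  have h1 : (Matrix.of fun i j => a s(i, j)) = (Matrix.of fun i j => b s(i, j)) :=
    (Matrix.toEuclideanCLM (𝕜 := ℝ) (n := Fin n)).injective h
  funext p
  induction p using Sym2.ind with
  | _ i j => exact congrFun (congrFun h1 i) j

/-- M3: dimension -/
theorem finrank_S (n : ℕ) : n * (n + 1) / 2 ≤ finrank ℝ (S n) := by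
  let f : (Sym2 (Fin n) → ℝ) →ₗ[ℝ] S n := (symOp n).codRestrict (S n) (symOp_mem n)
  have hf : Function.Injective f := fun a b h => symOp_inj n (congrArg Subtype.val h)
  have h1 := LinearMap.finrank_le_finrank_of_injective hf
  rw [finrank_fintype_fun_eq_card, Sym2.card, Fintype.card_fin, Nat.choose_two_right] at h1
  rw [mul_comm]
  simpa using h1

end P052D
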