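import Mathlib.Analysis.Normed.Module.Convex
import Mathlib.Analysis.Convex.Topology
import Mathlib.LinearAlgebra.Finsupp.LinearCombination
import Mathlib.Data.ZMod.Basic
import Mathlib.LinearAlgebra.LinearIndependent.Lemmas
import Mathlib.Analysis.SpecificLimits.Basic
import Mathlib.Algebra.CharP.Two

/-!
# P052, module M1: chains mod 2 of small tuples of points

`Ch E k` = chains mod 2 of `k`-tuples of points of `E` (tuples, possibly degenerate; `k` is the
number of vertices). `bd` boundary, `cone x`, `tau` (negation), `sd` barycentric subdivision.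
`exists_fine`: fine hemispherical chains.
-/

open Finsupp

namespace Vale.Agent.P052.H938

variable {E : Type*}

/-- Chains mod 2 of `k`-tuples. -/
abbrev Ch (E : Type*) (k : ℕ) := (Fin k → E) →₀ ZMod 2

/-- The chain of one tuple. -/
noncomputable abbrev sg {k : ℕ} (v : Fin k → E) : Ch E k := single v 1

/-- The boundary. -/
noncomputable def bd (k : ℕ) : Ch E (k + 1) →ₗ[ZMod 2] Ch E k :=
  linearCombination (ZMod 2) fun v => ∑ i : Fin (k + 1), sg fun j => v (i.succAbove j)

/-- The cone. -/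
noncomputable def cone (x : E) (k : ℕ) : Ch E k →ₗ[ZMod 2] Ch E (k + 1) :=
  linearCombination (ZMod 2) fun v => sg (Fin.cons x v)

theorem bd_sg {k : ℕ} (v : Fin (k + 1) → E) :
    bd k (sg v) = ∑ i : Fin (k + 1), sg fun j => v (i.succAbove j) := by
  unfold bd
  rw [linearCombination_single, one_smul]

theorem cone_sg (x : E) {k : ℕ} (v : Fin k → E) : cone x k (sg v) = sg (Fin.cons x v) := by
  unfold cone
  rw [linearCombination_single, one_smul]

theorem add_self' {k : ℕ} (c : Ch E k) : c + c = 0 := by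
  ext v
  simp only [Finsupp.add_apply, Finsupp.zero_apply]
  exact CharTwo.add_self_eq_zero _

/-- Two linear maps which agree on tuples. -/
theorem ext_sg {k : ℕ} {M : Type*} [AddCommMonoid M] [Module (ZMod 2) M]
    {f g : Ch E k →ₗ[ZMod 2] M} (h : ∀ v, f (sg v) = g (sg v)) (c : Ch E k) : f c = g c := by
  have : f = g := by
    apply Finsupp.lhom_ext'
    intro v
    ext
    simpa using h v
  rw [this]

theorem bd_cone_zero (x : E) (c : Ch E 0) : bd 0 (cone x 0 c) = c := by
  have h : ((bd 0).comp (cone x 0)) c = (LinearMap.id : Ch E 0 →ₗ[ZMod 2] Ch E 0) c := by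
    apply ext_sg
    intro v
    rw [LinearMap.comp_apply, cone_sg, bd_sg, LinearMap.id_apply, Fin.sum_univ_succ,
      Finset.univ_eq_empty, Finset.sum_empty, add_zero]
    congr 1
  simpa using h

theorem bd_cone (x : E) {k : ℕ} (c : Ch E (k + 1)) :
    bd (k + 1) (cone x (k + 1) c) = c + cone x k (bd k c) := by
  have h : ((bd (k + 1)).comp (cone x (k + 1))) c =
      ((LinearMap.id : Ch E (k + 1) →ₗ[ZMod 2] Ch E (k + 1)) + (cone x k).comp (bd k)) c := by
    apply ext_sg
    intro v
    rw [LinearMap.comp_apply, cone_sg, bd_sg, LinearMap.add_apply, LinearMap.id_apply,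
      LinearMap.comp_apply, bd_sg, map_sum, Fin.sum_univ_succ]
    congr 1
    apply Finset.sum_congr rfl
    intro i _
    rw [cone_sg]
    congr 1
    funext j
    refine Fin.cases ?_ (fun j => ?_) j
    · simp
    · simp
  simpa using h

theorem bd_bd {k : ℕ} (c : Ch E (k + 2)) : bd k (bd (k + 1) c) = 0 := by
  have h : ∀ k, ∀ c : Ch E (k + 2), ((bd k).comp (bd (k + 1))) c = (0 : _ →ₗ[ZMod 2] _) c := by
    intro k
    induction k with
    | zero =>
      intro c
      apply ext_sg
      intro v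
      obtain ⟨x, w, rfl⟩ : ∃ x w, v = Fin.cons x w := ⟨v 0, Fin.tail v, (Fin.cons_self_tail v).symm⟩
      obtain ⟨y, u, rfl⟩ : ∃ y u, w = Fin.cons y u := ⟨w 0, Fin.tail w, (Fin.cons_self_tail w).symm⟩
      rw [LinearMap.comp_apply, ← cone_sg x, bd_cone, map_add, bd_cone_zero, ← cone_sg y,
        bd_cone_zero, LinearMap.zero_apply, add_self']
    | succ k ih =>
      intro c
      apply ext_sg
      intro v
      obtain ⟨x, w, rfl⟩ : ∃ x w, v = Fin.cons x w := ⟨v 0, Fin.tail v, (Fin.cons_self_tail v).symm⟩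
      have h1 := ih (sg w)
      rw [LinearMap.comp_apply, LinearMap.zero_apply] at h1
      rw [LinearMap.comp_apply, ← cone_sg x, bd_cone, map_add, bd_cone, h1, map_zero, add_zero,
        LinearMap.zero_apply, add_self']
  simpa using h k c

/-! ### negation -/

section Neg

variable [Neg E]

/-- The antipode. -/
noncomputable def tau (k : ℕ) : Ch E k →ₗ[ZMod 2] Ch E k :=
  linearCombination (ZMod 2) fun v => sg (-v)

theorem tau_sg {k : ℕ} (v : Fin k → E) : tau k (sg v) = sg (-v) := by
  unfold tau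
  rw [linearCombination_single, one_smul]

theorem tau_bd {k : ℕ} (c : Ch E (k + 1)) : tau k (bd k c) = bd k (tau (k + 1) c) := by
  have h : ((tau k).comp (bd k)) c = ((bd k).comp (tau (k + 1))) c := by
    apply ext_sg
    intro v
    rw [LinearMap.comp_apply, LinearMap.comp_apply, tau_sg, bd_sg, bd_sg, map_sum]
    apply Finset.sum_congr rfl
    intro i _
    rw [tau_sg]
    rfl
  simpa using h

theorem tau_cone (x : E) {k : ℕ} (c : Ch E k) :
    tau (k + 1) (cone x k c) = cone (-x) k (tau k c) := by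
  have h : ((tau (k + 1)).comp (cone x k)) c = ((cone (-x) k).comp (tau k)) c := by
    apply ext_sg
    intro v
    rw [LinearMap.comp_apply, LinearMap.comp_apply, tau_sg, cone_sg, cone_sg, tau_sg]
    congr 1
    funext j
    refine Fin.cases ?_ (fun j => ?_) j
    · simp
    · simp
  simpa using h

end Neg

theorem tau_tau [InvolutiveNeg E] {k : ℕ} (c : Ch E k) : tau k (tau k c) = c := by
  have h : ((tau k).comp (tau k)) c = (LinearMap.id : Ch E k →ₗ[ZMod 2] Ch E k) c := by
    apply ext_sg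
    intro v
    rw [LinearMap.comp_apply, tau_sg, tau_sg, neg_neg, LinearMap.id_apply]
  simpa using h

/-! ### supports -/

/-- All the tuples of the chain satisfy `P`. -/
def All {k : ℕ} (P : (Fin k → E) → Prop) (c : Ch E k) : Prop := ∀ v ∈ c.support, P v

theorem All.mono {k : ℕ} {P Q : (Fin k → E) → Prop} {c : Ch E k} (h : All P c)
    (hPQ : ∀ v, P v → Q v) : All Q c := fun v hv => hPQ v (h v hv)

theorem all_zero {k : ℕ} (P : (Fin k → E) → Prop) : All P (0 : Ch E k) := by
  intro v hv
  simp at hv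

theorem All.add {k : ℕ} {P : (Fin k → E) → Prop} {c c' : Ch E k} (h : All P c) (h' : All P c') :
    All P (c + c') := by
  classical
  intro v hv
  rcases Finset.mem_union.1 (Finsupp.support_add hv) with h1 | h1
  · exact h v h1
  · exact h' v h1

theorem all_sg {k : ℕ} {P : (Fin k → E) → Prop} {v : Fin k → E} (h : P v) : All P (sg v) := by
  classical
  intro w hw
  have := Finsupp.support_single_subset hw
  rw [Finset.mem_singleton] at this
  rw [this]
  exact h

theorem all_sum {k : ℕ} {P : (Fin k → E) → Prop} {ι : Type*} {s : Finset ι} {f : ι → Ch E k}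
    (h : ∀ i ∈ s, All P (f i)) : All P (∑ i ∈ s, f i) := by
  classical
  induction s using Finset.induction_on with
  | empty => simpa using all_zero P
  | insert a s ha ih =>
    rw [Finset.sum_insert ha]
    exact (h a (Finset.mem_insert_self a s)).add (ih fun i hi => h i (Finset.mem_insert_of_mem hi))

theorem all_map {k l : ℕ} {P : (Fin k → E) → Prop} {Q : (Fin l → E) → Prop} {c : Ch E k}
    (f : Ch E k →ₗ[ZMod 2] Ch E l) (h : All P c) (hf : ∀ v, P v → All Q (f (sg v))) :
    All Q (f c) := by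
  have h1 : f c = ∑ v ∈ c.support, c v • f (sg v) := by
    conv_lhs => rw [← Finsupp.sum_single c, Finsupp.sum, map_sum]
    apply Finset.sum_congr rfl
    intro v _
    rw [← map_smul]
    congr 1
    rw [Finsupp.smul_single, smul_eq_mul, mul_one]
  rw [h1]
  apply all_sum
  intro v hv
  have h2 := hf v (h v hv)
  intro w hw
  exact h2 w (Finsupp.support_smul hw)

/-! ### barycentric subdivision -/

section Sd

variable [NormedAddCommGroup E] [NormedSpace ℝ E]

/-- The barycentre of a tuple. -/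
noncomputable def bary {k : ℕ} (v : Fin (k + 1) → E) : E := ((k : ℝ) + 1)⁻¹ • ∑ i, v i

theorem bary_neg {k : ℕ} (v : Fin (k + 1) → E) : bary (-v) = -bary v := by
  unfold bary
  simp [Finset.sum_neg_distrib]

/-- Barycentric subdivision. -/
noncomputable def sd : (k : ℕ) → Ch E k →ₗ[ZMod 2] Ch E k
  | 0 => LinearMap.id
  | k + 1 => linearCombination (ZMod 2) fun v => cone (bary v) k (sd k (bd k (sg v)))

theorem sd_zero (c : Ch E 0) : sd 0 c = c := rfl

theorem sd_sg {k : ℕ} (v : Fin (k + 1) → E) :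
    sd (k + 1) (sg v) = cone (bary v) k (sd k (bd k (sg v))) := by
  show linearCombination (ZMod 2) _ (sg v) = _
  rw [linearCombination_single, one_smul]

theorem bd_sd {k : ℕ} (c : Ch E (k + 1)) : bd k (sd (k + 1) c) = sd k (bd k c) := by
  have h : ∀ k, ∀ c : Ch E (k + 1), ((bd k).comp (sd (k + 1))) c = ((sd k).comp (bd k)) c := by
    intro k
    induction k with
    | zero =>
      intro c
      apply ext_sg
      intro v
      rw [LinearMap.comp_apply, LinearMap.comp_apply, sd_sg, bd_cone_zero]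
    | succ k ih =>
      intro c
      apply ext_sg
      intro v
      have h1 := ih (bd (k + 1) (sg v))
      rw [LinearMap.comp_apply, LinearMap.comp_apply, bd_bd, map_zero] at h1
      rw [LinearMap.comp_apply, LinearMap.comp_apply, sd_sg, bd_cone, h1, map_zero, add_zero]
  simpa using h k c

theorem tau_sd {k : ℕ} (c : Ch E k) : tau k (sd k c) = sd k (tau k c) := by
  have h : ∀ k, ∀ c : Ch E k, ((tau k).comp (sd k)) c = ((sd k).comp (tau k)) c := by
    intro k
    induction k with
    | zero => intro c; rfl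
    | succ k ih =>
      intro c
      apply ext_sg
      intro v
      have h1 := ih (bd k (sg v))
      rw [LinearMap.comp_apply, LinearMap.comp_apply] at h1
      rw [LinearMap.comp_apply, LinearMap.comp_apply, sd_sg, tau_cone, tau_sg, sd_sg, bary_neg,
        h1, tau_bd, tau_sg]
  simpa using h k c

theorem dist_bary_le {k : ℕ} {v : Fin (k + 1) → E} {d : ℝ} (h : ∀ i j, dist (v i) (v j) ≤ d)
    (i : Fin (k + 1)) : dist (v i) (bary v) ≤ (k : ℝ) / (k + 1) * d := by
  have hk : (0 : ℝ) < (k : ℝ) + 1 := by positivity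
  have h1 : v i - bary v = ((k : ℝ) + 1)⁻¹ • ∑ j, (v i - v j) := by
    rw [Finset.sum_sub_distrib, Finset.sum_const, Finset.card_univ, Fintype.card_fin, smul_sub,
      ← Nat.cast_smul_eq_nsmul ℝ, smul_smul]
    unfold bary
    congr 1
    push_cast
    rw [inv_mul_cancel₀ hk.ne', one_smul]
  have h2 : ∑ j, (v i - v j) = ∑ j ∈ Finset.univ.erase i, (v i - v j) := by
    rw [← Finset.add_sum_erase _ _ (Finset.mem_univ i), sub_self, zero_add]
  have h3 : ‖∑ j, (v i - v j)‖ ≤ k * d := by
    rw [h2]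
    refine (norm_sum_le _ _).trans ?_
    refine (Finset.sum_le_sum fun j _ => ?_).trans ?_ (b := ∑ _j ∈ Finset.univ.erase i, d)
    · rw [← dist_eq_norm]
      exact h i j
    · rw [Finset.sum_const, Finset.card_erase_of_mem (Finset.mem_univ i), Finset.card_univ,
        Fintype.card_fin, Nat.add_sub_cancel, nsmul_eq_mul]
  rw [dist_eq_norm, h1, norm_smul, norm_inv, Real.norm_of_nonneg hk.le]
  calc ((k : ℝ) + 1)⁻¹ * ‖∑ j, (v i - v j)‖ ≤ ((k : ℝ) + 1)⁻¹ * (k * d) :=
        mul_le_mul_of_nonneg_left h3 (by positivity)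
    _ = (k : ℝ) / (k + 1) * d := by field_simp

theorem bary_mem {k : ℕ} {v : Fin (k + 1) → E} {s : Set E} (hs : Convex ℝ s)
    (h : ∀ i, v i ∈ s) : bary v ∈ s := by
  have hk : (0 : ℝ) < (k : ℝ) + 1 := by positivity
  unfold bary
  rw [Finset.smul_sum]
  apply hs.sum_mem
  · intro i _
    positivity
  · rw [Finset.sum_const, Finset.card_univ, Fintype.card_fin, nsmul_eq_mul]
    push_cast
    exact mul_inv_cancel₀ hk.ne'
  · intro i _
    exact h i

theorem ratio_mono {k n : ℕ} (h : k ≤ n) : (k : ℝ) / (k + 1) ≤ (n : ℝ) / (n + 1) := by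
  have h1 : (k : ℝ) ≤ n := by exact_mod_cast h
  rw [div_le_div_iff₀ (by positivity) (by positivity)]
  nlinarith

/-- The tuples of the subdivision of a tuple. -/
theorem all_sd {n : ℕ} {s : Set E} (hs : Convex ℝ s) {d : ℝ} (hd : 0 ≤ d) : ∀ (k : ℕ), k ≤ n + 1 →
    ∀ v : Fin k → E, (∀ i, v i ∈ s) → (∀ i j, dist (v i) (v j) ≤ d) →
      All (fun w => (∀ i, w i ∈ s) ∧ (∀ i j, dist (w i) (w j) ≤ (n : ℝ) / (n + 1) * d) ∧
        ∀ t : Set E, Convex ℝ t → (∀ i, v i ∈ t) → ∀ i, w i ∈ t) (sd k (sg v)) := by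
  intro k
  induction k with
  | zero =>
    intro _ v h1 h2
    rw [sd_zero]
    apply all_sg
    exact ⟨h1, fun i => i.elim0, fun _ _ _ i => i.elim0⟩
  | succ k ih =>
    intro hk v h1 h2
    rw [sd_sg]
    have h3 : All (fun w : Fin k → E => (∀ i, w i ∈ s) ∧
        (∀ i j, dist (w i) (w j) ≤ (n : ℝ) / (n + 1) * d) ∧
        ∀ t : Set E, Convex ℝ t → (∀ i, v i ∈ t) → ∀ i, w i ∈ t) (sd k (bd k (sg v))) := by
      rw [bd_sg, map_sum]
      apply all_sum
      intro i _
      refine (ih (by omega) (fun j => v (i.succAbove j)) (fun j => h1 _) (fun j l => h2 _ _)).mono ?_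
      rintro w ⟨a1, a2, a3⟩
      exact ⟨a1, a2, fun t ht hv => a3 t ht fun j => hv _⟩
    refine all_map (cone (bary v) k) h3 ?_
    rintro w ⟨a1, a2, a3⟩
    rw [cone_sg]
    apply all_sg
    have hball : ∀ i, w i ∈ Metric.closedBall (bary v) ((n : ℝ) / (n + 1) * d) := by
      apply a3 _ (convex_closedBall _ _)
      intro i
      rw [Metric.mem_closedBall]
      refine (dist_bary_le h2 i).trans (mul_le_mul_of_nonneg_right (ratio_mono (by omega)) hd)
    refine ⟨?_, ?_, ?_⟩
    · intro i
      refine Fin.cases ?_ (fun i => ?_) i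
      · rw [Fin.cons_zero]
        exact bary_mem hs h1
      · rw [Fin.cons_succ]
        exact a1 i
    · intro i j
      have hnn : 0 ≤ (n : ℝ) / (n + 1) * d := by positivity
      refine Fin.cases ?_ (fun i => ?_) i <;> refine Fin.cases ?_ (fun j => ?_) j
      · rw [dist_self]; exact hnn
      · rw [Fin.cons_zero, Fin.cons_succ, dist_comm]
        exact hball j
      · rw [Fin.cons_zero, Fin.cons_succ]
        exact hball i
      · rw [Fin.cons_succ, Fin.cons_succ]
        exact a2 i j
    · intro t ht hv i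
      refine Fin.cases ?_ (fun i => ?_) i
      · rw [Fin.cons_zero]
        exact bary_mem ht hv
      · rw [Fin.cons_succ]
        exact a3 t ht hv i

/-! ### hemispheres -/

/-- The standard hemispherical chains (before subdivision). -/
noncomputable def hh (b : ℕ → E) : (k : ℕ) → Ch E (k + 1)
  | 0 => sg fun _ => b 0
  | k + 1 => cone (b (k + 1)) (k + 1) (hh b k + tau (k + 1) (hh b k))

theorem bd_zz (b : ℕ → E) (k : ℕ) : bd k (hh b k + tau (k + 1) (hh b k)) = 0 := by
  induction k with
  | zero =>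
    show bd 0 (sg _ + tau 1 (sg _)) = 0
    rw [tau_sg, map_add, bd_sg, bd_sg, Fin.sum_univ_succ, Fin.sum_univ_succ,
      Finset.univ_eq_empty, Finset.sum_empty, Finset.sum_empty, add_zero, add_zero]
    have e : (fun j : Fin 0 => (-fun _ : Fin 1 => b 0) (Fin.succAbove 0 j)) =
        fun j : Fin 0 => (fun _ : Fin 1 => b 0) (Fin.succAbove 0 j) := by
      funext j
      exact j.elim0
    rw [e, add_self']
  | succ k ih =>
    rw [map_add, ← tau_bd]
    show bd (k + 1) (cone (b (k + 1)) (k + 1) (hh b k + tau (k + 1) (hh b k))) +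
      tau (k + 1) (bd (k + 1) (cone (b (k + 1)) (k + 1) (hh b k + tau (k + 1) (hh b k)))) = 0
    rw [bd_cone, ih, map_zero, add_zero, map_add, tau_tau, add_comm (tau (k + 1) (hh b k)),
      add_self']

theorem bd_hh (b : ℕ → E) (k : ℕ) : bd (k + 1) (hh b (k + 1)) = hh b k + tau (k + 1) (hh b k) := by
  show bd (k + 1) (cone (b (k + 1)) (k + 1) (hh b k + tau (k + 1) (hh b k))) = _
  rw [bd_cone, bd_zz, map_zero, add_zero]

/-- The tuples of `hh`: the vertices are `s j • b j`, `j ≤ k`. -/
theorem all_hh (b : ℕ → E) (k : ℕ) : All (fun v => ∃ s : ℕ → ℤˣ, ∀ i, ∃ j ≤ k,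
    v i = ((s j : ℤ) : ℝ) • b j) (hh b k) := by
  induction k with
  | zero =>
    apply all_sg
    exact ⟨fun _ => 1, fun i => ⟨0, le_rfl, by simp⟩⟩
  | succ k ih =>
    have h1 : All (fun v : Fin (k + 1) → E => ∃ s : ℕ → ℤˣ, ∀ i, ∃ j ≤ k,
        v i = ((s j : ℤ) : ℝ) • b j) (tau (k + 1) (hh b k)) := by
      refine all_map _ ih ?_
      rintro v ⟨s, hs⟩
      rw [tau_sg]
      apply all_sg
      refine ⟨fun j => -s j, fun i => ?_⟩
      obtain ⟨j, hj, hv⟩ := hs i
      refine ⟨j, hj, ?_⟩
      rw [Pi.neg_apply, hv]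
      simp
    refine all_map (cone (b (k + 1)) (k + 1)) (ih.add h1) ?_
    rintro v ⟨s, hs⟩
    rw [cone_sg]
    apply all_sg
    refine ⟨fun j => if j = k + 1 then 1 else s j, fun i => ?_⟩
    refine Fin.cases ?_ (fun i => ?_) i
    · refine ⟨k + 1, le_rfl, ?_⟩
      simp
    · obtain ⟨j, hj, hv⟩ := hs i
      refine ⟨j, hj.trans (Nat.le_succ k), ?_⟩
      rw [Fin.cons_succ, hv]
      simp only [if_neg (show ¬ j = k + 1 by omega)]

/-- Iterated subdivision. -/
noncomputable def sdn (N k : ℕ) : Ch E k → Ch E k := (sd k)^[N]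

theorem sdn_succ (N k : ℕ) (c : Ch E k) : sdn (N + 1) k c = sd k (sdn N k c) :=
  Function.iterate_succ_apply' _ _ _

theorem sdn_add (N k : ℕ) (c c' : Ch E k) : sdn N k (c + c') = sdn N k c + sdn N k c' := by
  induction N with
  | zero => rfl
  | succ N ih => rw [sdn_succ, sdn_succ, sdn_succ, ih, map_add]

theorem tau_sdn (N k : ℕ) (c : Ch E k) : tau k (sdn N k c) = sdn N k (tau k c) := by
  induction N with
  | zero => rfl
  | succ N ih => rw [sdn_succ, sdn_succ, tau_sd, ih]

theorem bd_sdn (N k : ℕ) (c : Ch E (k + 1)) : bd k (sdn N (k + 1) c) = sdn N k (bd k c) := by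
  induction N with
  | zero => rfl
  | succ N ih => rw [sdn_succ, sdn_succ, bd_sd, ih]

theorem sdn_point (N : ℕ) (p : E) : sdn N 1 (sg fun _ => p) = sg fun _ => p := by
  induction N with
  | zero => rfl
  | succ N ih =>
    rw [sdn_succ, ih, sd_sg, sd_zero, bd_sg, Fin.sum_univ_succ, Finset.univ_eq_empty,
      Finset.sum_empty, add_zero, cone_sg]
    congr 1
    funext j
    refine Fin.cases ?_ (fun j => j.elim0) j
    rw [Fin.cons_zero]
    unfold bary
    simp

/-- **Fine hemispherical chains.** -/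
theorem exists_fine {n : ℕ} (b : Fin (n + 1) → E) (hb : LinearIndependent ℝ b) :
    ∃ K : Set E, IsCompact K ∧ (0 : E) ∉ K ∧ (∀ x ∈ K, -x ∈ K) ∧ ∀ δ > 0,
      ∃ h : (k : ℕ) → Ch E (k + 1), (∃ p, h 0 = sg fun _ => p) ∧
        (∀ k, bd (k + 1) (h (k + 1)) = h k + tau (k + 1) (h k)) ∧
        ∀ k ≤ n, All (fun v => (∀ i, v i ∈ K) ∧ ∀ i j, dist (v i) (v j) < δ) (h k) := by
  classical
  set b' : ℕ → E := fun j => if h : j < n + 1 then b ⟨j, h⟩ else 0 with hb'
  set K : Set E := ⋃ s : Fin (n + 1) → ℤˣ,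
    convexHull ℝ (Set.range fun j => ((s j : ℤ) : ℝ) • b j) with hK
  have hKc : IsCompact K := by
    apply isCompact_iUnion
    intro s
    exact (Set.finite_range _).isCompact_convexHull ℝ
  have hK0 : (0 : E) ∉ K := by
    intro h0
    rw [hK, Set.mem_iUnion] at h0
    obtain ⟨s, hs⟩ := h0
    rw [convexHull_range_eq_exists_affineCombination (R := ℝ)] at hs
    obtain ⟨t, w, hw, hw1, hw2⟩ := hs
    rw [Finset.affineCombination_eq_linear_combination _ _ _ hw1] at hw2
    have h1 : ∑ j ∈ t, (w j * ((s j : ℤ) : ℝ)) • b j = 0 := by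
      rw [← hw2]
      apply Finset.sum_congr rfl
      intro j _
      rw [smul_smul]
    have h2 := linearIndependent_iff'.1 hb t _ h1
    have h3 : ∑ j ∈ t, w j = 0 := by
      apply Finset.sum_eq_zero
      intro j hj
      have h4 := h2 j hj
      rcases mul_eq_zero.1 h4 with h5 | h5
      · exact h5
      · exfalso
        rcases Int.units_eq_one_or (s j) with h6 | h6 <;> rw [h6] at h5 <;> norm_num at h5
    rw [hw1] at h3
    exact one_ne_zero h3
  have hKn : ∀ x ∈ K, -x ∈ K := by
    intro x hx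
    rw [hK, Set.mem_iUnion] at hx ⊢
    obtain ⟨s, hs⟩ := hx
    refine ⟨fun j => -s j, ?_⟩
    have h1 : (Set.range fun j => (((-s j : ℤˣ) : ℤ) : ℝ) • b j) =
        -(Set.range fun j => ((s j : ℤ) : ℝ) • b j) := by
      ext y
      constructor
      · rintro ⟨j, rfl⟩
        exact ⟨j, by simp⟩
      · rintro ⟨j, hj⟩
        refine ⟨j, ?_⟩
        have hj' : ((s j : ℤ) : ℝ) • b j = -y := hj
        simp only [Units.val_neg, Int.cast_neg, neg_smul]
        rw [hj', neg_neg]
    rw [h1, convexHull_neg]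
    simpa using hs
  refine ⟨K, hKc, hK0, hKn, fun δ hδ => ?_⟩
  obtain ⟨D, hD⟩ := hKc.isBounded.exists_norm_le
  set d : ℝ := max (2 * D) 0 with hd
  have hd0 : 0 ≤ d := le_max_right _ _
  set r : ℝ := (n : ℝ) / (n + 1) with hr
  have hr0 : 0 ≤ r := by positivity
  have hr1 : r < 1 := by
    rw [hr, div_lt_one (by positivity)]
    linarith
  obtain ⟨N, hN⟩ : ∃ N : ℕ, r ^ N * d < δ := by
    have h1 : Filter.Tendsto (fun N : ℕ => r ^ N * d) Filter.atTop (nhds (0 * d)) :=
      (tendsto_pow_atTop_nhds_zero_of_lt_one hr0 hr1).mul_const d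
    rw [zero_mul] at h1
    exact (h1.eventually (gt_mem_nhds hδ)).exists
  refine ⟨fun k => sdn N (k + 1) (hh b' k), ⟨b' 0, sdn_point N _⟩, fun k => ?_, fun k hk => ?_⟩
  · rw [bd_sdn, bd_hh, sdn_add, tau_sdn]
  · have key : ∀ N, All (fun v : Fin (k + 1) → E => (∃ s : Fin (n + 1) → ℤˣ, ∀ i,
        v i ∈ convexHull ℝ (Set.range fun j => ((s j : ℤ) : ℝ) • b j)) ∧
        ∀ i j, dist (v i) (v j) ≤ r ^ N * d) (sdn N (k + 1) (hh b' k)) := by
      intro N
      induction N with
      | zero =>
        refine (all_hh b' k).mono ?_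
        rintro v ⟨s, hs⟩
        have h1 : ∀ i, v i ∈ convexHull ℝ
            (Set.range fun j : Fin (n + 1) => ((s j : ℤ) : ℝ) • b j) := by
          intro i
          obtain ⟨j, hj, hv⟩ := hs i
          apply subset_convexHull
          refine ⟨⟨j, by omega⟩, ?_⟩
          rw [hv, hb']
          simp only
          rw [dif_pos (show j < n + 1 by omega)]
        refine ⟨⟨fun j => s j, h1⟩, fun i j => ?_⟩
        rw [pow_zero, one_mul, dist_eq_norm]
        have h2 : ∀ i, ‖v i‖ ≤ D := fun i => hD _ (Set.mem_iUnion.2 ⟨fun j => s j, h1 i⟩)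
        calc ‖v i - v j‖ ≤ ‖v i‖ + ‖v j‖ := norm_sub_le _ _
          _ ≤ 2 * D := by linarith [h2 i, h2 j]
          _ ≤ d := le_max_left _ _
      | succ N ih =>
        rw [sdn_succ]
        refine all_map _ ih ?_
        rintro v ⟨⟨s, hs⟩, hv⟩
        refine (all_sd (n := n) (convex_convexHull ℝ
          (Set.range fun j => ((s j : ℤ) : ℝ) • b j)) (by positivity) (k + 1) (by omega) v hs
          hv).mono ?_
        rintro w ⟨a1, a2, -⟩
        refine ⟨⟨s, a1⟩, fun i j => (a2 i j).trans_eq ?_⟩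
        rw [pow_succ]
        ring
    refine (key N).mono ?_
    rintro v ⟨⟨s, hs⟩, hv⟩
    exact ⟨fun i => Set.mem_iUnion.2 ⟨s, hs i⟩, fun i j => (hv i j).trans_lt hN⟩

end Sd

end Vale.Agent.P052.H938
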